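import Mathlib

/-!
# The bilinear Hall lemma (GAP)

`I a'` = closed in-neighbourhood on the first coordinate, `N b` = closed out-neighbourhood on the
second coordinate, `B ⊆ U` relations given by rows.
-/

namespace Vale.Agent.P038.H999

open Finset

section Gap

variable {V W : Type*} [Fintype V] [Fintype W] [DecidableEq V] [DecidableEq W]

/-- weight of a finite set -/
noncomputable def wt {α : Type*} (w : α → ℝ) (X : Finset α) : ℝ := ∑ x ∈ X, w x

/-- out-neighbourhood of a set -/
def Nn (N : W → Finset W) (X : Finset W) : Finset W := X.biUnion N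

/-- erosion in the first coordinate -/
def Er (I : V → Finset V) (U : V → Finset W) (a' : V) : Finset W :=
  univ.filter fun b => ∀ a ∈ I a', b ∈ U a

lemma mem_Nn {N : W → Finset W} {X : Finset W} {b : W} : b ∈ Nn N X ↔ ∃ x ∈ X, b ∈ N x := by
  simp [Nn]

lemma mem_Er {I : V → Finset V} {U : V → Finset W} {a' : V} {b : W} :
    b ∈ Er I U a' ↔ ∀ a ∈ I a', b ∈ U a := by
  simp [Er]

lemma wt_nonneg {α : Type*} {w : α → ℝ} (hw : ∀ x, 0 ≤ w x) (X : Finset α) : 0 ≤ wt w X :=
  Finset.sum_nonneg fun x _ => hw x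

lemma wt_mono {α : Type*} {w : α → ℝ} (hw : ∀ x, 0 ≤ w x) {X Y : Finset α} (h : X ⊆ Y) :
    wt w X ≤ wt w Y :=
  Finset.sum_le_sum_of_subset_of_nonneg h fun x _ _ => hw x

lemma wt_union {α : Type*} [DecidableEq α] (w : α → ℝ) {X Y : Finset α} (h : Disjoint X Y) :
    wt w (X ∪ Y) = wt w X + wt w Y := by
  unfold wt
  exact Finset.sum_union h

lemma wt_sdiff {α : Type*} [DecidableEq α] (w : α → ℝ) {X Y : Finset α} (h : Y ⊆ X) :
    wt w (X \ Y) = wt w X - wt w Y := by
  unfold wt
  have := Finset.sum_sdiff (f := w) h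
  linarith

lemma wt_lin {α : Type*} (w w' : α → ℝ) (s t : ℝ) (X : Finset α) :
    wt (fun b => s * w b + t * w' b) X = s * wt w X + t * wt w' X := by
  unfold wt
  rw [Finset.sum_add_distrib, Finset.mul_sum, Finset.mul_sum]

/-- the functional of (GAP) -/
noncomputable def Phi (I : V → Finset V) (N : W → Finset W) (u : V → ℝ) (w : W → ℝ)
    (B U : V → Finset W) : ℝ :=
  ∑ a, u a * (wt w (U a \ B a) - wt w (Nn N (U a) \ Nn N (B a))) +
  ∑ a, u a * (wt w (Nn N (Er I U a) \ Er I (fun a => Nn N (B a)) a) - wt w (Er I U a \ Er I B a))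

lemma Phi_lin (I : V → Finset V) (N : W → Finset W) (u : V → ℝ) (w w' : W → ℝ) (s t : ℝ)
    (B U : V → Finset W) :
    Phi I N u (fun b => s * w b + t * w' b) B U = s * Phi I N u w B U + t * Phi I N u w' B U := by
  unfold Phi
  simp only [wt_lin]
  have e1 : ∀ a, u a * (s * wt w (U a \ B a) + t * wt w' (U a \ B a) -
      (s * wt w (Nn N (U a) \ Nn N (B a)) + t * wt w' (Nn N (U a) \ Nn N (B a)))) =
      s * (u a * (wt w (U a \ B a) - wt w (Nn N (U a) \ Nn N (B a)))) +
      t * (u a * (wt w' (U a \ B a) - wt w' (Nn N (U a) \ Nn N (B a)))) := by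
    intro a; ring
  have e2 : ∀ a, u a * (s * wt w (Nn N (Er I U a) \ Er I (fun a => Nn N (B a)) a) +
      t * wt w' (Nn N (Er I U a) \ Er I (fun a => Nn N (B a)) a) -
      (s * wt w (Er I U a \ Er I B a) + t * wt w' (Er I U a \ Er I B a))) =
      s * (u a * (wt w (Nn N (Er I U a) \ Er I (fun a => Nn N (B a)) a) -
        wt w (Er I U a \ Er I B a))) +
      t * (u a * (wt w' (Nn N (Er I U a) \ Er I (fun a => Nn N (B a)) a) -
        wt w' (Er I U a \ Er I B a))) := by
    intro a; ring
  simp only [e1, e2, Finset.sum_add_distrib, ← Finset.mul_sum]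
  ring

/-- row Hall condition -/
def RowHall (N : W → Finset W) (w : W → ℝ) (B U : V → Finset W) : Prop :=
  ∀ a, ∀ T ⊆ U a \ B a, wt w T ≤ wt w (Nn N T \ Nn N (B a))

/-- column Hall condition -/
def ColHall (I : V → Finset V) (u : V → ℝ) (B U : V → Finset W) : Prop :=
  ∀ b : W, ∀ T : Finset V, (∀ a ∈ T, b ∈ U a ∧ b ∉ B a) →
    wt u T ≤ wt u (univ.filter fun a' => b ∈ Er I U a' ∧ ∃ a ∈ T, a ∈ I a')

lemma crossing {ι : Type*} (s : Finset ι) (p q : ι → ℝ) (hp : ∀ i ∈ s, 0 < p i)
    (hq : ∃ i ∈ s, q i < 0) :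
    ∃ t : ℝ, 0 ≤ t ∧ t ≤ 1 ∧ (∀ i ∈ s, 0 ≤ (1 - t) * p i + t * q i) ∧
      ∃ i ∈ s, (1 - t) * p i + t * q i = 0 := by
  classical
  obtain ⟨i0, hi0, hqi0⟩ := hq
  have hne : (s.filter fun i => q i < 0).Nonempty := ⟨i0, by simp [hi0, hqi0]⟩
  obtain ⟨k, hk, hmin⟩ := Finset.exists_min_image (s.filter fun i => q i < 0)
    (fun i => p i / (p i - q i)) hne
  rw [Finset.mem_filter] at hk
  have hpk := hp k hk.1
  have hdk : 0 < p k - q k := by linarith [hk.2]
  refine ⟨p k / (p k - q k), by positivity, ?_, ?_, k, hk.1, ?_⟩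
  · rw [div_le_one hdk]; linarith [hk.2]
  · intro i hi
    have h1 : p k / (p k - q k) ≤ 1 := by rw [div_le_one hdk]; linarith [hk.2]
    have h0 : 0 ≤ p k / (p k - q k) := by positivity
    have hpi := hp i hi
    by_cases hqi : q i < 0
    · have hm := hmin i (by simp [hi, hqi])
      have hdi : 0 < p i - q i := by linarith
      rw [le_div_iff₀ hdi] at hm
      nlinarith
    · push Not at hqi
      have : 0 ≤ (1 - p k / (p k - q k)) * p i := mul_nonneg (by linarith) hpi.le
      have := mul_nonneg h0 hqi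
      linarith
  · field_simp
    ring

/-- monotonicity of the functional when a tight set is added to a row -/
lemma Phi_tight {I : V → Finset V} {N : W → Finset W} {u : V → ℝ} {w : W → ℝ}
    {B U : V → Finset W} (hu : ∀ a, 0 ≤ u a) (hw : ∀ b, 0 ≤ w b) (hBU : ∀ a, B a ⊆ U a)
    (hR : RowHall N w B U) {a0 : V} {T : Finset W} (hT : T ⊆ U a0 \ B a0)
    (htight : wt w (Nn N T \ Nn N (B a0)) = wt w T) :
    Phi I N u w (Function.update B a0 (B a0 ∪ T)) U ≤ Phi I N u w B U := by
  classical
  set B' := Function.update B a0 (B a0 ∪ T) with hB'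
  have hB'0 : B' a0 = B a0 ∪ T := by simp [hB']
  have hB'ne : ∀ a, a ≠ a0 → B' a = B a := by
    intro a ha; simp [hB', Function.update_of_ne ha]
  have hTU : T ⊆ U a0 := fun x hx => (Finset.mem_sdiff.1 (hT hx)).1
  have hTB : ∀ x ∈ T, x ∉ B a0 := fun x hx => (Finset.mem_sdiff.1 (hT hx)).2
  have hNnU : Nn N (B a0 ∪ T) = Nn N (B a0) ∪ Nn N T := by
    ext b
    simp only [mem_Nn, Finset.mem_union]
    constructor
    · rintro ⟨x, hx | hx, h⟩
      · exact Or.inl ⟨x, hx, h⟩
      · exact Or.inr ⟨x, hx, h⟩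
    · rintro (⟨x, hx, h⟩ | ⟨x, hx, h⟩)
      · exact ⟨x, Or.inl hx, h⟩
      · exact ⟨x, Or.inr hx, h⟩
  unfold Phi
  have first : ∀ a, u a * (wt w (U a \ B' a) - wt w (Nn N (U a) \ Nn N (B' a))) =
      u a * (wt w (U a \ B a) - wt w (Nn N (U a) \ Nn N (B a))) := by
    intro a
    by_cases ha : a = a0
    · subst ha
      rw [hB'0, hNnU]
      have e1 : U a \ (B a ∪ T) = (U a \ B a) \ T := by
        ext x; simp only [Finset.mem_sdiff, Finset.mem_union]; tauto
      have e2 : Nn N (U a) \ (Nn N (B a) ∪ Nn N T) =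
          (Nn N (U a) \ Nn N (B a)) \ (Nn N T \ Nn N (B a)) := by
        ext x; simp only [Finset.mem_sdiff, Finset.mem_union]; tauto
      have s2 : Nn N T \ Nn N (B a) ⊆ Nn N (U a) \ Nn N (B a) := by
        apply Finset.sdiff_subset_sdiff _ (Finset.Subset.refl _)
        intro b hb
        rw [mem_Nn] at hb ⊢
        obtain ⟨x, hx, h⟩ := hb
        exact ⟨x, hTU hx, h⟩
      rw [e1, e2, wt_sdiff w hT, wt_sdiff w s2, htight]
      ring
    · rw [hB'ne a ha]
  have second : ∀ a, u a * (wt w (Nn N (Er I U a) \ Er I (fun a => Nn N (B' a)) a) -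
      wt w (Er I U a \ Er I B' a)) ≤
      u a * (wt w (Nn N (Er I U a) \ Er I (fun a => Nn N (B a)) a) -
      wt w (Er I U a \ Er I B a)) := by
    intro a
    apply mul_le_mul_of_nonneg_left _ (hu a)
    by_cases ha : a0 ∈ I a
    · -- T' = elements of T lying in all other rows
      set T' := T.filter fun b => ∀ a1 ∈ I a, a1 ≠ a0 → b ∈ B a1 with hT'
      have hT'T : T' ⊆ T := Finset.filter_subset _ _
      have hT'S : T' ⊆ U a0 \ B a0 := hT'T.trans hT
      have hrow := hR a0 T' hT'S
      -- the part removed from the second term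
      have hF : Er I U a \ Er I B' a = (Er I U a \ Er I B a) \ T' := by
        ext b
        simp only [Finset.mem_sdiff, mem_Er, hT', Finset.mem_filter]
        constructor
        · rintro ⟨h1, h2⟩
          refine ⟨⟨h1, fun h3 => h2 fun a1 ha1 => ?_⟩, fun h3 => h2 fun a1 ha1 => ?_⟩
          · by_cases h4 : a1 = a0
            · subst h4; rw [hB'0]; exact Finset.mem_union_left _ (h3 a1 ha1)
            · rw [hB'ne a1 h4]; exact h3 a1 ha1
          · by_cases h4 : a1 = a0
            · subst h4; rw [hB'0]; exact Finset.mem_union_right _ h3.1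
            · rw [hB'ne a1 h4]; exact h3.2 a1 ha1 h4
        · rintro ⟨⟨h1, h2⟩, h3⟩
          refine ⟨h1, fun h4 => ?_⟩
          have h5 : ∀ a1 ∈ I a, a1 ≠ a0 → b ∈ B a1 := by
            intro a1 ha1 hne
            have := h4 a1 ha1
            rwa [hB'ne a1 hne] at this
          have h6 := h4 a0 ha
          rw [hB'0, Finset.mem_union] at h6
          rcases h6 with h6 | h6
          · apply h2
            intro a1 ha1
            by_cases h7 : a1 = a0
            · subst h7; exact h6
            · exact h5 a1 ha1 h7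
          · exact h3 ⟨h6, h5⟩
      have hT'F : T' ⊆ Er I U a \ Er I B a := by
        intro b hb
        rw [hT', Finset.mem_filter] at hb
        rw [Finset.mem_sdiff, mem_Er, mem_Er]
        refine ⟨fun a1 ha1 => ?_, fun h => hTB b hb.1 (h a0 ha)⟩
        by_cases h7 : a1 = a0
        · subst h7; exact hTU hb.1
        · exact hBU a1 (hb.2 a1 ha1 h7)
      have hG : Nn N (Er I U a) \ Er I (fun a => Nn N (B' a)) a ⊆
          (Nn N (Er I U a) \ Er I (fun a => Nn N (B a)) a) \ (Nn N T' \ Nn N (B a0)) := by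
        intro b hb
        rw [Finset.mem_sdiff, mem_Er] at hb
        obtain ⟨h1, h2⟩ := hb
        rw [Finset.mem_sdiff, Finset.mem_sdiff, mem_Er]
        refine ⟨⟨h1, fun h3 => h2 fun a1 ha1 => ?_⟩, fun h3 => h2 fun a1 ha1 => ?_⟩
        · by_cases h4 : a1 = a0
          · subst h4; rw [hB'0, hNnU]; exact Finset.mem_union_left _ (h3 a1 ha1)
          · rw [hB'ne a1 h4]; exact h3 a1 ha1
        · rw [Finset.mem_sdiff, mem_Nn] at h3
          obtain ⟨⟨x, hx, hxb⟩, h5⟩ := h3
          rw [hT', Finset.mem_filter] at hx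
          by_cases h4 : a1 = a0
          · subst h4; rw [hB'0, hNnU, Finset.mem_union, mem_Nn, mem_Nn]
            exact Or.inr ⟨x, hx.1, hxb⟩
          · rw [hB'ne a1 h4, mem_Nn]
            exact ⟨x, hx.2 a1 ha1 h4, hxb⟩
      have hsub : Nn N T' \ Nn N (B a0) ⊆
          Nn N (Er I U a) \ Er I (fun a => Nn N (B a)) a := by
        intro b hb
        rw [Finset.mem_sdiff, mem_Nn] at hb
        obtain ⟨⟨x, hx, hxb⟩, h5⟩ := hb
        rw [Finset.mem_sdiff, mem_Nn, mem_Er]
        refine ⟨⟨x, (Finset.mem_sdiff.1 (hT'F hx)).1, hxb⟩, fun h => h5 (h a0 ha)⟩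
      have i1 := wt_mono hw hG
      rw [wt_sdiff w hsub] at i1
      rw [hF, wt_sdiff w hT'F]
      linarith
    · have e1 : Er I B' a = Er I B a := by
        ext b
        simp only [mem_Er]
        constructor
        · intro h a1 ha1
          have := h a1 ha1
          rwa [hB'ne a1 (by rintro rfl; exact ha ha1)] at this
        · intro h a1 ha1
          rw [hB'ne a1 (by rintro rfl; exact ha ha1)]
          exact h a1 ha1
      have e2 : Er I (fun a => Nn N (B' a)) a = Er I (fun a => Nn N (B a)) a := by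
        ext b
        simp only [mem_Er]
        constructor
        · intro h a1 ha1
          have := h a1 ha1
          rwa [hB'ne a1 (by rintro rfl; exact ha ha1)] at this
        · intro h a1 ha1
          rw [hB'ne a1 (by rintro rfl; exact ha ha1)]
          exact h a1 ha1
      rw [e1, e2]
  have s1 := Finset.sum_congr rfl fun a (_ : a ∈ (univ : Finset V)) => first a
  have s2 := Finset.sum_le_sum fun a (_ : a ∈ (univ : Finset V)) => second a
  rw [s1]
  linarith

lemma Nn_union (N : W → Finset W) (X Y : Finset W) : Nn N (X ∪ Y) = Nn N X ∪ Nn N Y := by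
  ext b
  simp only [mem_Nn, Finset.mem_union]
  constructor
  · rintro ⟨x, hx | hx, h⟩
    · exact Or.inl ⟨x, hx, h⟩
    · exact Or.inr ⟨x, hx, h⟩
  · rintro (⟨x, hx, h⟩ | ⟨x, hx, h⟩)
    · exact ⟨x, Or.inl hx, h⟩
    · exact ⟨x, Or.inr hx, h⟩

lemma RowHall_tight {N : W → Finset W} {w : W → ℝ}
    {B U : V → Finset W} (hR : RowHall N w B U) {a0 : V} {T : Finset W} (hT : T ⊆ U a0 \ B a0)
    (htight : wt w (Nn N T \ Nn N (B a0)) = wt w T) :
    RowHall N w (Function.update B a0 (B a0 ∪ T)) U := by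
  classical
  intro a T2 hT2
  by_cases ha : a = a0
  · subst ha
    rw [Function.update_self] at hT2 ⊢
    have hd : Disjoint T T2 := by
      rw [Finset.disjoint_left]
      intro x hx hx2
      have := (Finset.mem_sdiff.1 (hT2 hx2)).2
      exact this (Finset.mem_union_right _ hx)
    have hsub : T ∪ T2 ⊆ U a \ B a := by
      intro x hx
      rcases Finset.mem_union.1 hx with h | h
      · exact hT h
      · have := Finset.mem_sdiff.1 (hT2 h)
        exact Finset.mem_sdiff.2 ⟨this.1, fun h3 => this.2 (Finset.mem_union_left _ h3)⟩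
    have h1 := hR a (T ∪ T2) hsub
    rw [wt_union w hd] at h1
    have e1 : Nn N (T ∪ T2) \ Nn N (B a) =
        (Nn N T \ Nn N (B a)) ∪ (Nn N T2 \ Nn N (B a ∪ T)) := by
      rw [Nn_union, Nn_union]
      ext x; simp only [Finset.mem_sdiff, Finset.mem_union]; tauto
    have e2 : Disjoint (Nn N T \ Nn N (B a)) (Nn N T2 \ Nn N (B a ∪ T)) := by
      rw [Nn_union, Finset.disjoint_left]
      intro x hx hx2
      rw [Finset.mem_sdiff] at hx hx2
      exact hx2.2 (Finset.mem_union_right _ hx.1)
    rw [e1, wt_union w e2, htight] at h1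
    linarith
  · rw [Function.update_of_ne ha] at hT2 ⊢
    exact hR a T2 hT2

lemma ColHall_tight {I : V → Finset V} {u : V → ℝ}
    {B U : V → Finset W} (hC : ColHall I u B U) (a0 : V) (T : Finset W) :
    ColHall I u (Function.update B a0 (B a0 ∪ T)) U := by
  classical
  intro b T1 hT1
  apply hC b T1
  intro a ha
  obtain ⟨h1, h2⟩ := hT1 a ha
  refine ⟨h1, fun h3 => h2 ?_⟩
  by_cases h4 : a = a0
  · subst h4; rw [Function.update_self]; exact Finset.mem_union_left _ h3
  · rw [Function.update_of_ne h4]; exact h3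

lemma wt_single {w : W → ℝ} {b0 : W} (hw0 : ∀ b, b ≠ b0 → w b = 0) (X : Finset W) :
    wt w X = if b0 ∈ X then w b0 else 0 := by
  unfold wt
  split_ifs with h
  · exact Finset.sum_eq_single_of_mem b0 h fun b _ hb => hw0 b hb
  · apply Finset.sum_eq_zero
    intro b hb
    apply hw0
    rintro rfl
    exact h hb

lemma chain_ineq {I : V → Finset V} {N : W → Finset W} {u : V → ℝ}
    {B U : V → Finset W} (hu : ∀ a, 0 ≤ u a) (hC : ColHall I u B U) {b0 : W}
    (hS : ∀ a b, b ∈ U a → b ∉ B a → b0 ∉ Nn N (B a)) (Z : Finset W)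
    (hZ : ∀ b ∈ Z, b0 ∈ N b) :
    wt u (univ.filter fun a => ∃ b ∈ Z, b ∈ U a ∧ b ∉ B a) ≤
      wt u (univ.filter fun a' => ∃ b ∈ Z, b ∈ Er I U a' ∧ ∃ a ∈ I a', ∃ b1, b1 ∈ U a ∧ b1 ∉ B a) := by
  classical
  induction Z using Finset.induction_on with
  | empty => simp [wt]
  | insert b Z hb ih =>
    have ih' := ih fun b hb => hZ b (Finset.mem_insert_of_mem hb)
    set T := (univ : Finset V).filter fun a => (b ∈ U a ∧ b ∉ B a) ∧
      ∀ b' ∈ Z, ¬ (b' ∈ U a ∧ b' ∉ B a) with hT
    set M := (univ : Finset V).filter fun a' => b ∈ Er I U a' ∧ ∃ a ∈ T, a ∈ I a' with hM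
    have hcol : wt u T ≤ wt u M := hC b T (fun a ha => ((Finset.mem_filter.1 ha).2).1)
    set L0 := (univ : Finset V).filter fun a => ∃ b ∈ Z, b ∈ U a ∧ b ∉ B a with hL0
    set R0 := (univ : Finset V).filter fun a' => ∃ b ∈ Z, b ∈ Er I U a' ∧
      ∃ a ∈ I a', ∃ b1, b1 ∈ U a ∧ b1 ∉ B a with hR0
    have e1 : ((univ : Finset V).filter fun a => ∃ b' ∈ insert b Z, b' ∈ U a ∧ b' ∉ B a) =
        L0 ∪ T := by
      ext a
      simp only [Finset.mem_filter, Finset.mem_univ, true_and, Finset.mem_union, hL0, hT,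
        Finset.mem_insert]
      constructor
      · rintro ⟨b', h1 | h1, h2⟩
        · subst h1
          by_cases h3 : ∃ b ∈ Z, b ∈ U a ∧ b ∉ B a
          · exact Or.inl h3
          · push Not at h3
            refine Or.inr ⟨h2, fun b'' hb'' h4 => h4.2 (h3 b'' hb'' h4.1)⟩
        · exact Or.inl ⟨b', h1, h2⟩
      · rintro (⟨b', h1, h2⟩ | ⟨h1, _⟩)
        · exact ⟨b', Or.inr h1, h2⟩
        · exact ⟨b, Or.inl rfl, h1⟩
    have d1 : Disjoint L0 T := by
      rw [Finset.disjoint_left]
      intro a h1 h2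
      obtain ⟨b', h3, h4⟩ := (Finset.mem_filter.1 h1).2
      exact (Finset.mem_filter.1 h2).2.2 b' h3 h4
    have d2 : Disjoint R0 M := by
      rw [Finset.disjoint_left]
      intro a' h1 h2
      obtain ⟨b', hb'Z, hb'E, -⟩ := (Finset.mem_filter.1 h1).2
      obtain ⟨-, a, haT, haI⟩ := (Finset.mem_filter.1 h2).2
      have haT' := (Finset.mem_filter.1 haT).2
      have h5 : b' ∈ U a := mem_Er.1 hb'E a haI
      have h6 : b' ∈ B a := by
        by_contra h7
        exact haT'.2 b' hb'Z ⟨h5, h7⟩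
      exact hS a b haT'.1.1 haT'.1.2 (mem_Nn.2 ⟨b', h6, hZ b' (Finset.mem_insert_of_mem hb'Z)⟩)
    have s2 : R0 ∪ M ⊆ (univ : Finset V).filter fun a' => ∃ b' ∈ insert b Z, b' ∈ Er I U a' ∧
        ∃ a ∈ I a', ∃ b1, b1 ∈ U a ∧ b1 ∉ B a := by
      intro a' h1
      rw [Finset.mem_filter]
      refine ⟨Finset.mem_univ _, ?_⟩
      rcases Finset.mem_union.1 h1 with h1 | h1
      · obtain ⟨b', h2, h3⟩ := (Finset.mem_filter.1 h1).2
        exact ⟨b', Finset.mem_insert_of_mem h2, h3⟩
      · obtain ⟨h2, a, haT, haI⟩ := (Finset.mem_filter.1 h1).2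
        exact ⟨b, Finset.mem_insert_self _ _, h2, a, haI, b, ((Finset.mem_filter.1 haT).2).1⟩
    rw [e1, wt_union u d1]
    refine le_trans ?_ (wt_mono hu s2)
    rw [wt_union u d2]
    linarith

/-- the case where the weight is concentrated in one point and nothing is tight -/
lemma Phi_single {I : V → Finset V} {N : W → Finset W} {u : V → ℝ} {w : W → ℝ}
    {B U : V → Finset W} (hu : ∀ a, 0 ≤ u a) (hw : ∀ b, 0 ≤ w b)
    (hC : ColHall I u B U) {b0 : W} (hw0 : ∀ b, b ≠ b0 → w b = 0)
    (hs : ∀ a, ∀ T ⊆ U a \ B a, T.Nonempty → wt w T < wt w (Nn N T \ Nn N (B a))) :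
    0 ≤ Phi I N u w B U := by
  classical
  have key : ∀ a b, b ∈ U a → b ∉ B a → b ≠ b0 ∧ b0 ∈ N b ∧ b0 ∉ Nn N (B a) := by
    intro a b h1 h2
    have h3 := hs a {b} (by simpa using ⟨h1, h2⟩) (Finset.singleton_nonempty b)
    rw [wt_single hw0 (Nn N {b} \ Nn N (B a))] at h3
    have h4 : wt w {b} = w b := by simp [wt]
    rw [h4] at h3
    split_ifs at h3 with h5
    · rw [Finset.mem_sdiff, mem_Nn] at h5
      obtain ⟨⟨x, hx, hxb⟩, h6⟩ := h5
      rw [Finset.mem_singleton] at hx
      subst hx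
      exact ⟨fun h7 => by subst h7; exact lt_irrefl _ h3, hxb, h6⟩
    · exact absurd h3 (not_lt.2 (hw b))
  set Ts := (univ : Finset V).filter fun a => ∃ b ∈ (univ : Finset W).filter (fun b => b0 ∈ N b),
    b ∈ U a ∧ b ∉ B a with hTs
  set L := (univ : Finset V).filter fun a' => b0 ∈ Nn N (Er I U a') \ Er I (fun a => Nn N (B a)) a'
    with hL
  have hchain := chain_ineq (N := N) hu hC (b0 := b0) (fun a b h1 h2 => (key a b h1 h2).2.2)
    ((univ : Finset W).filter fun b => b0 ∈ N b) (fun b hb => (Finset.mem_filter.1 hb).2)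
  have hsubL : ((univ : Finset V).filter fun a' => ∃ b ∈ (univ : Finset W).filter
      (fun b => b0 ∈ N b), b ∈ Er I U a' ∧ ∃ a ∈ I a', ∃ b1, b1 ∈ U a ∧ b1 ∉ B a) ⊆ L := by
    intro a' h
    obtain ⟨b, hb, hbE, a, haI, b1, hb1, hb2⟩ := (Finset.mem_filter.1 h).2
    rw [hL, Finset.mem_filter, Finset.mem_sdiff]
    refine ⟨Finset.mem_univ _, mem_Nn.2 ⟨b, hbE, (Finset.mem_filter.1 hb).2⟩, fun h3 => ?_⟩
    exact (key a b1 hb1 hb2).2.2 (mem_Er.1 h3 a haI)
  have hTL : wt u Ts ≤ wt u L := hchain.trans (wt_mono hu hsubL)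
  have f1 : ∀ a, wt w (U a \ B a) - wt w (Nn N (U a) \ Nn N (B a)) =
      - (if a ∈ Ts then w b0 else 0) := by
    intro a
    rw [wt_single hw0, wt_single hw0]
    have h1 : b0 ∉ U a \ B a := by
      intro h
      obtain ⟨h2, h3⟩ := Finset.mem_sdiff.1 h
      exact (key a b0 h2 h3).1 rfl
    have h2 : b0 ∈ Nn N (U a) \ Nn N (B a) ↔ a ∈ Ts := by
      rw [hTs, Finset.mem_filter, Finset.mem_sdiff, mem_Nn]
      constructor
      · rintro ⟨⟨x, hx, hxb⟩, h3⟩
        refine ⟨Finset.mem_univ _, x, Finset.mem_filter.2 ⟨Finset.mem_univ _, hxb⟩, hx, fun h4 => ?_⟩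
        exact h3 (mem_Nn.2 ⟨x, h4, hxb⟩)
      · rintro ⟨-, x, hx, hx1, hx2⟩
        exact ⟨⟨x, hx1, (Finset.mem_filter.1 hx).2⟩, (key a x hx1 hx2).2.2⟩
    rw [if_neg h1]
    by_cases h3 : a ∈ Ts
    · rw [if_pos (h2.2 h3), if_pos h3]; ring
    · rw [if_neg (fun h => h3 (h2.1 h)), if_neg h3]; ring
  have f2 : ∀ a, wt w (Nn N (Er I U a) \ Er I (fun a => Nn N (B a)) a) -
      wt w (Er I U a \ Er I B a) = (if a ∈ L then w b0 else 0) := by
    intro a
    rw [wt_single hw0, wt_single hw0]
    have h1 : b0 ∉ Er I U a \ Er I B a := by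
      intro h
      obtain ⟨h2, h3⟩ := Finset.mem_sdiff.1 h
      rw [mem_Er] at h2 h3
      push Not at h3
      obtain ⟨a1, ha1, h4⟩ := h3
      exact (key a1 b0 (h2 a1 ha1) h4).1 rfl
    have h2 : b0 ∈ Nn N (Er I U a) \ Er I (fun a => Nn N (B a)) a ↔ a ∈ L := by
      rw [hL, Finset.mem_filter]
      simp
    rw [if_neg h1]
    by_cases h3 : a ∈ L
    · rw [if_pos (h2.2 h3), if_pos h3]; ring
    · rw [if_neg (fun h => h3 (h2.1 h)), if_neg h3]; ring
  have g1 : ∑ a, u a * (wt w (U a \ B a) - wt w (Nn N (U a) \ Nn N (B a))) =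
      - (w b0 * wt u Ts) := by
    simp only [f1]
    unfold wt
    rw [Finset.mul_sum, ← Finset.sum_neg_distrib, ← Finset.sum_filter_add_sum_filter_not univ
      (fun a => a ∈ Ts)]
    have z1 : ∑ x ∈ univ.filter (fun a => ¬ a ∈ Ts), u x * -(if x ∈ Ts then w b0 else 0) = 0 := by
      apply Finset.sum_eq_zero
      intro x hx
      rw [if_neg (Finset.mem_filter.1 hx).2]; ring
    have z2 : (univ.filter fun a => a ∈ Ts) = Ts := by ext x; simp
    rw [z1, z2, add_zero]
    apply Finset.sum_congr rfl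
    intro x hx
    rw [if_pos hx]; ring
  have g2 : ∑ a, u a * (wt w (Nn N (Er I U a) \ Er I (fun a => Nn N (B a)) a) -
      wt w (Er I U a \ Er I B a)) = w b0 * wt u L := by
    simp only [f2]
    unfold wt
    rw [Finset.mul_sum, ← Finset.sum_filter_add_sum_filter_not univ (fun a => a ∈ L)]
    have z1 : ∑ x ∈ univ.filter (fun a => ¬ a ∈ L), u x * (if x ∈ L then w b0 else 0) = 0 := by
      apply Finset.sum_eq_zero
      intro x hx
      rw [if_neg (Finset.mem_filter.1 hx).2]; ring
    have z2 : (univ.filter fun a => a ∈ L) = L := by ext x; simp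
    rw [z1, z2, add_zero]
    apply Finset.sum_congr rfl
    intro x hx
    rw [if_pos hx]; ring
  unfold Phi
  rw [g1, g2]
  nlinarith [hw b0]

lemma Phi_zero (I : V → Finset V) (N : W → Finset W) (u : V → ℝ) (B U : V → Finset W) :
    Phi I N u (fun _ => 0) B U = 0 := by
  have := Phi_lin I N u (fun _ => 0) (fun _ => 0) 0 0 B U
  simpa using this

lemma Phi_sum (I : V → Finset V) (N : W → Finset W) (u : V → ℝ) (B U : V → Finset W)
    {ι : Type*} [DecidableEq ι] (s : Finset ι) (f : ι → W → ℝ) :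
    Phi I N u (fun x => ∑ i ∈ s, f i x) B U = ∑ i ∈ s, Phi I N u (f i) B U := by
  induction s using Finset.induction_on with
  | empty => simpa using Phi_zero I N u B U
  | insert i s hi ih =>
    rw [Finset.sum_insert hi, ← ih]
    have h := Phi_lin I N u (f i) (fun x => ∑ i ∈ s, f i x) 1 1 B U
    simp only [one_mul] at h
    rw [← h]
    congr 1
    funext x
    rw [Finset.sum_insert hi]

/-- **The bilinear Hall lemma (GAP).** -/
theorem gap {I : V → Finset V} {N : W → Finset W} {u : V → ℝ} (hu : ∀ a, 0 ≤ u a)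
    {U : V → Finset W} (n : ℕ) : ∀ (w : W → ℝ) (B : V → Finset W),
      ∑ a, (U a \ B a).card = n → (∀ b, 0 ≤ w b) → (∀ a, B a ⊆ U a) →
      RowHall N w B U → ColHall I u B U → 0 ≤ Phi I N u w B U := by
  classical
  induction n using Nat.strong_induction_on with
  | _ n ih =>
    intro w B hn hw hBU hR hC
    -- the tight case
    have tight_case : ∀ w' : W → ℝ, (∀ b, 0 ≤ w' b) → RowHall N w' B U →
        (∃ a0, ∃ T ⊆ U a0 \ B a0, T.Nonempty ∧ wt w' (Nn N T \ Nn N (B a0)) = wt w' T) →
        0 ≤ Phi I N u w' B U := by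
      rintro w' hw' hR' ⟨a0, T, hT, hTne, htight⟩
      refine le_trans ?_ (Phi_tight hu hw' hBU hR' hT htight)
      have hlt : ∑ a, (U a \ (Function.update B a0 (B a0 ∪ T)) a).card < n := by
        rw [← hn]
        apply Finset.sum_lt_sum
        · intro a _
          apply Finset.card_le_card
          apply Finset.sdiff_subset_sdiff (Finset.Subset.refl _)
          by_cases h4 : a = a0
          · subst h4; rw [Function.update_self]; exact Finset.subset_union_left
          · rw [Function.update_of_ne h4]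
        · refine ⟨a0, Finset.mem_univ _, ?_⟩
          apply Finset.card_lt_card
          rw [Function.update_self]
          obtain ⟨x, hx⟩ := hTne
          refine ⟨Finset.sdiff_subset_sdiff (Finset.Subset.refl _) Finset.subset_union_left, ?_⟩
          intro h
          have := Finset.mem_sdiff.1 (h (hT hx))
          exact this.2 (Finset.mem_union_right _ hx)
      refine ih _ hlt w' _ rfl hw' ?_ (RowHall_tight hR' hT htight) (ColHall_tight hC a0 T)
      intro a
      by_cases h4 : a = a0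
      · subst h4; rw [Function.update_self]
        exact Finset.union_subset (hBU a) fun x hx => (Finset.mem_sdiff.1 (hT hx)).1
      · rw [Function.update_of_ne h4]; exact hBU a
    by_contra hneg
    push Not at hneg
    have hs : ∀ a, ∀ T ⊆ U a \ B a, T.Nonempty → wt w T < wt w (Nn N T \ Nn N (B a)) := by
      intro a T hT hTne
      rcases lt_or_eq_of_le (hR a T hT) with h | h
      · exact h
      · exact absurd (tight_case w hw hR ⟨a, T, hT, hTne, h.symm⟩) (not_le.2 hneg)
    -- a coordinate with negative value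
    have hdec : Phi I N u w B U = ∑ b, Phi I N u (fun x => if x = b then w b else 0) B U := by
      rw [← Phi_sum]
      congr 1
      funext x
      simp
    obtain ⟨b0, hb0⟩ : ∃ b0, Phi I N u (fun x => if x = b0 then w b0 else 0) B U < 0 := by
      by_contra hcon
      push Not at hcon
      rw [hdec] at hneg
      exact absurd (Finset.sum_nonneg fun b _ => hcon b) (not_le.2 hneg)
    set w1 : W → ℝ := fun x => if x = b0 then w b0 else 0 with hw1
    have hw1n : ∀ b, 0 ≤ w1 b := by
      intro b; simp only [hw1]; split_ifs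
      · exact hw b0
      · exact le_refl 0
    have hw10 : ∀ b, b ≠ b0 → w1 b = 0 := by
      intro b hb; simp [hw1, hb]
    by_cases hA : ∀ a, ∀ T ⊆ U a \ B a, T.Nonempty → wt w1 T < wt w1 (Nn N T \ Nn N (B a))
    · exact absurd (Phi_single hu hw1n hC hw10 hA) (not_le.2 hb0)
    · push Not at hA
      obtain ⟨a1, T1, hT1, hT1ne, hle⟩ := hA
      by_cases hB : RowHall N w1 B U
      · exact absurd (tight_case w1 hw1n hB ⟨a1, T1, hT1, hT1ne, le_antisymm hle (hB a1 T1 hT1)⟩)
          (not_le.2 hb0)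
      · unfold RowHall at hB
        push Not at hB
        obtain ⟨a2, T2, hT2, hlt2⟩ := hB
        have hT2ne : T2.Nonempty := by
          rw [Finset.nonempty_iff_ne_empty]
          rintro rfl
          have : wt w1 (∅ : Finset W) = 0 := by simp [wt]
          rw [this] at hlt2
          exact absurd (wt_nonneg hw1n _) (not_le.2 hlt2)
        obtain ⟨t, ht0, ht1, hall, ⟨⟨a3, T3⟩, hmem3, heq3⟩⟩ := crossing
          ((univ : Finset (V × Finset W)).filter fun p => p.2 ⊆ U p.1 \ B p.1 ∧ p.2.Nonempty)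
          (fun p => wt w (Nn N p.2 \ Nn N (B p.1)) - wt w p.2)
          (fun p => wt w1 (Nn N p.2 \ Nn N (B p.1)) - wt w1 p.2)
          (by
            intro p hp
            obtain ⟨h1, h2⟩ := (Finset.mem_filter.1 hp).2
            have := hs p.1 p.2 h1 h2
            linarith)
          ⟨(a2, T2), Finset.mem_filter.2 ⟨Finset.mem_univ _, hT2, hT2ne⟩, by
            simp only; linarith⟩
        set w2 : W → ℝ := fun x => (1 - t) * w x + t * w1 x with hw2
        have hw2n : ∀ b, 0 ≤ w2 b := by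
          intro b
          have := mul_nonneg (sub_nonneg.2 ht1) (hw b)
          have := mul_nonneg ht0 (hw1n b)
          simp only [hw2]; linarith
        have hR2 : RowHall N w2 B U := by
          intro a T hT
          by_cases hTne : T.Nonempty
          · have := hall (a, T) (Finset.mem_filter.2 ⟨Finset.mem_univ _, hT, hTne⟩)
            simp only at this
            rw [hw2, wt_lin, wt_lin]
            linarith
          · rw [Finset.not_nonempty_iff_eq_empty] at hTne
            subst hTne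
            have : wt w2 (∅ : Finset W) = 0 := by simp [wt]
            rw [this]
            exact wt_nonneg hw2n _
        obtain ⟨h31, h32⟩ := (Finset.mem_filter.1 hmem3).2
        have h2 := tight_case w2 hw2n hR2 ⟨a3, T3, h31, h32, by
          simp only at heq3
          rw [hw2, wt_lin, wt_lin]
          linarith⟩
        rw [hw2, Phi_lin] at h2
        have i1 : (1 - t) * Phi I N u w B U + t * Phi I N u w1 B U < 0 := by
          rcases lt_or_eq_of_le ht1 with h | h
          · have := mul_neg_of_pos_of_neg (sub_pos.2 h) hneg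
            have := mul_nonneg_of_nonpos_of_nonpos (neg_nonpos.2 ht0) hb0.le
            linarith
          · subst h
            linarith
        linarith

end Gap

end Vale.Agent.P038.H999
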